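import Vale.Agent.P337.Defs
import Vale.Agent.P337.Red

namespace Vale.Agent.Results.P337.InCH

open Vale.Agent.P337

/-- The existential theory of the reals lies in a fixed level of the counting hierarchy. -/
theorem result : ∃ j : ℕ, Level j ETR := etr_level

end Vale.Agent.Results.P337.InCH
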